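import Vale.Agent.P095.Mix.Defs
import Vale.Agent.P095.Gamma.Main

/-!
P095: slots and windows from commuting matrix units in a tracial model.
-/

open Filter Topology BoundedContinuousFunction

namespace Vale.Agent.P095.Mix

open Gamma

universe u

/-- A tracial state factors through a representation in which it is faithful. -/
theorem exists_faithful_model {C₀ : Type u} [CStarAlgebra C₀] (T : TraceState C₀) :
    ∃ (C : Type u) (_ : CStarAlgebra C) (τ : TraceState C) (π : C₀ →⋆ₐ[ℂ] C),
      (∀ x, τ.hsq (π x) = T.hsq x) ∧ ∀ x, T.hsq x = 0 → π x = 0 := by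
  obtain ⟨M⟩ := exists_limitModel (fun _ : ℕ => T) (hyperfilter ℕ)
  let cst : C₀ →⋆ₐ[ℂ] (ℕ →ᵇ C₀) :=
    { toFun := BoundedContinuousFunction.const ℕ
      map_one' := rfl
      map_mul' := fun _ _ => rfl
      map_zero' := rfl
      map_add' := fun _ _ => rfl
      commutes' := fun _ => rfl
      map_star' := fun _ => rfl }
  have hf : ∀ x, M.τ.f (M.π (cst x)) = T.f x := fun x =>
    tendsto_nhds_unique (M.tendsto (cst x)) tendsto_const_nhds
  have hh : ∀ x, M.τ.hsq (M.π.comp cst x) = T.hsq x := fun x => by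
    simp only [StarAlgHom.comp_apply, TraceState.hsq, ← map_star, ← map_mul, hf]
  exact ⟨M.C, M.inst, M.τ, M.π.comp cst, hh, fun x hx => M.faithful _ ((hh x).trans hx)⟩

/-- The symmetry of a matrix unit. -/
def symUnit {C : Type*} [Mul C] [Sub C] [Star C] (z : C) : C := z * star z - star z * z

variable {C : Type u} [CStarAlgebra C]

/-- The slot system of commuting matrix units. -/
noncomputable def slotsOfUnits (τ : TraceState C) {Γ ι : Type*} (b : Γ → ι → C)
    (h0 : ∀ g i, b g i * b g i = 0) (h1 : ∀ g i, star (b g i) * b g i + b g i * star (b g i) = 1)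
    (hc : ∀ g k i j, i ≠ j → Commute (b g i) (b k j) ∧ Commute (b g i) (star (b k j))) :
    SlotSystem τ Γ ι where
  B g i := symUnit (b g i)
  U i := {y | ∀ x, (∀ g, Commute x (b g i) ∧ Commute x (star (b g i))) → Commute x y}
  star_mem i y hy x hx := by
    have := hy (star x) fun g => ⟨by simpa using (hx g).2.star_star,
      by simpa using (hx g).1.star_star⟩
    simpa using this.star_star
  B_mem g i x hx :=
    ((hx g).1.mul_right (hx g).2).sub_right ((hx g).2.mul_right (hx g).1)
  B_sa g i := by simp only [symUnit, star_sub, star_mul, star_star]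
  B_sq g i := by
    simp only [symUnit]
    set z := b g i
    have e0 : z * z = 0 := h0 g i
    have e0' : star z * star z = 0 := by rw [← star_mul, e0, star_zero]
    have e1 : z * star z * (star z * z) = 0 := by
      rw [mul_assoc, ← mul_assoc (star z), e0', zero_mul, mul_zero]
    have e2 : star z * z * (z * star z) = 0 := by
      rw [mul_assoc, ← mul_assoc z, e0, zero_mul, mul_zero]
    calc _ = (star z * z + z * star z) * (star z * z + z * star z)
          - (z * star z * (star z * z) + star z * z * (z * star z))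
          - (z * star z * (star z * z) + star z * z * (z * star z)) := by noncomm_ring
      _ = 1 := by rw [h1, e1, e2]; simp
  comm i j hij x hx y hy :=
    hy x fun k => by
      constructor
      · exact (hx (b k j) fun g => ⟨(hc g k i j hij).1.symm,
          by simpa using (hc g k i j hij).2.star_star.symm⟩).symm
      · exact (hx (star (b k j)) fun g => ⟨(hc g k i j hij).2.symm,
          (hc g k i j hij).1.star_star.symm⟩).symm
  par g i z hz := by
    have hgen : star (b g i) ∈ {y | ∀ x, (∀ g, Commute x (b g i) ∧ Commute x (star (b g i))) →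
        Commute x y} := fun x hx => (hx g).2
    have hcom : Commute z (star (b g i)) := hz _ hgen
    rw [symUnit, mul_sub, map_sub, sub_eq_zero, ← mul_assoc, τ.trace, ← mul_assoc, ← hcom.eq,
      mul_assoc]

/-- Matrix units commuting with a slot system, and windows with the engine's properties, form
mixing data. -/
theorem exists_mixData [PartialOrder C] [StarOrderedRing C] (τ : TraceState C) {Γ : Type*}
    [Fintype Γ] {q m L N R S M k : ℕ} (ex : Fin R × Fin S × Fin M ≃ Fin k) {e t : ℝ}
    {f : Fin k → ℝ → ℝ} (hf : ∀ j, Continuous (f j)) (hf0 : ∀ j θ, 0 ≤ f j θ)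
    (hfs : ∀ θ, ∑ j, f j θ = 1) (c : Fin q → ℝ) (Sys : SlotSystem τ Γ (Fin L × Cube m))
    (u₁ : Fin N → Fin M → C) (h0 : ∀ j a, u₁ j a * u₁ j a = 0)
    (h1 : ∀ j a, star (u₁ j a) * u₁ j a + u₁ j a * star (u₁ j a) = 1)
    (hc : ∀ j l a b, a ≠ b → Commute (u₁ j a) (u₁ l b) ∧ Commute (u₁ j a) (star (u₁ l b)))
    (hU : ∀ j a i, ∀ y ∈ Sys.U i, Commute (u₁ j a) y ∧ Commute (star (u₁ j a)) y) {σ : Γ → ℝ}
    (hdis : ∀ i j, i ≠ j →
      ‖τ.f (window (f i) t (bigZ c Sys.B σ) * window (f j) t (bigZ c Sys.B σ))‖ ≤ e)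
    (hdiv : ∀ a : C, (∀ i, ∀ x ∈ Sys.U i, Commute a x) → ∀ j,
      ‖τ.f (a * window (f j) t (bigZ c Sys.B σ)) - τ.f a / k‖ ≤ e * ‖a‖)
    (hcomm : ∀ a : C, (∀ i, ∀ x ∈ Sys.U i, Commute a x) → ∀ j,
      Commute a (window (f j) t (bigZ c Sys.B σ))) :
    ∃ D : MixData τ (Fin N) R S M e, D.u = u₁ ∧
      ∀ x, D.p x = window (f (ex x)) t (bigZ c Sys.B σ) := by
  have hk : k = R * S * M := by
    simpa [mul_assoc] using (Fintype.card_congr ex).symm
  exact ⟨
    { u := u₁
      p := fun x => window (f (ex x)) t (bigZ c Sys.B σ)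
      W := ⋃ i, Sys.U i
      u_sq := h0
      u_one := h1
      u_comm := fun j l a b hab => hc j l a b hab
      W_u := fun y hy j a => by
        obtain ⟨i, hi⟩ := Set.mem_iUnion.1 hy
        exact hU j a i y hi
      p_nonneg := fun x => window_nonneg (hf0 _) t _
      p_sum := (Equiv.sum_comp ex fun j => window (f j) t (bigZ c Sys.B σ)).trans
        (sum_window hf hfs t (isSelfAdjoint_bigZ c Sys.B Sys.B_sa σ))
      p_comm := fun x y => cfc_commute_cfc _ _ _
      p_u := fun x j a => (hcomm _ (fun i y hy => (hU j a i y hy).1) _).symm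
      p_mul := fun x y hxy => hdis _ _ fun hc => hxy (ex.injective hc)
      p_indep := fun a ha x => by
        rw [← hk]
        exact hdiv a (fun i y hy => ha y (Set.mem_iUnion.2 ⟨i, hy⟩)) (ex x) },
    rfl, fun x => rfl⟩

end Vale.Agent.P095.Mix
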