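import Vale.Agent.P095.Gamma.Main

/-!
P095: bookkeeping for translations by almost invariant finite sets: indices, weights and windows.
-/

namespace Vale.Agent.P095.Mix

open Gamma

universe v

variable {G : Type v} [Group G] [DecidableEq G]

/-- The uniform weights of `E`, normalised by the size of `F`. -/
noncomputable def unifW (F E : Finset G) {Γ : Finset G} (x : Γ) : ℝ :=
  if (x : G) ∈ E then 1 / F.card else 0

omit [Group G] in
theorem isWeight_unifW {F E Γ : Finset G} (hF : F.Nonempty) (hE : E ⊆ Γ)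
    (hc : E.card = F.card) : IsWeight (unifW F E : Γ → ℝ) := by
  have hcard : (0 : ℝ) < F.card := Nat.cast_pos.2 hF.card_pos
  refine ⟨fun x => by simp only [unifW]; split_ifs <;> positivity, ?_⟩
  simp only [unifW]
  rw [Finset.sum_coe_sort Γ fun x => if x ∈ E then (1 / F.card : ℝ) else 0, Finset.sum_ite_mem,
    Finset.inter_eq_right.2 hE, Finset.sum_const, hc, nsmul_eq_mul, mul_one_div_cancel hcard.ne']

theorem sum_abs_unifW_le {F Γ : Finset G} (hF : F.Nonempty) (hFΓ : F ⊆ Γ) {k : G}
    (hk : F.image (k * ·) ⊆ Γ) {δ : ℝ}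
    (h : (((F.image (k * ·)) \ F).card : ℝ) ≤ δ / 2 * F.card) :
    ∑ x : Γ, |unifW F F x - unifW F (F.image (k * ·)) x| ≤ δ := by
  have hcard : (0 : ℝ) < F.card := Nat.cast_pos.2 hF.card_pos
  set E := F.image (k * ·) with hE
  have hc : E.card = F.card := Finset.card_image_of_injective _ (mul_right_injective k)
  have hsplit : ∀ x : G, |(if x ∈ F then (1 / F.card : ℝ) else 0)
      - if x ∈ E then (1 / F.card : ℝ) else 0| =
      (if x ∈ F \ E then (1 / F.card : ℝ) else 0) +
        if x ∈ E \ F then (1 / F.card : ℝ) else 0 := fun x => by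
    by_cases hx : x ∈ F <;> by_cases hy : x ∈ E <;>
      simp only [Finset.mem_sdiff, hx, hy, not_true, not_false_iff, true_and, and_false,
        false_and, if_true, if_false] <;> simp
  simp only [unifW]
  rw [Finset.sum_coe_sort Γ fun x => |(if x ∈ F then (1 / F.card : ℝ) else 0)
    - if x ∈ E then (1 / F.card : ℝ) else 0|]
  simp only [hsplit, Finset.sum_add_distrib, Finset.sum_ite_mem,
    Finset.inter_eq_right.2 (Finset.sdiff_subset.trans hFΓ),
    Finset.inter_eq_right.2 (Finset.sdiff_subset.trans hk), Finset.sum_const,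
    nsmul_eq_mul, Finset.card_sdiff_comm hc.symm]
  rw [mul_one_div, ← add_div, div_le_iff₀ hcard]
  linarith

/-- An enumeration of `F` and its translates inside `Γ`, with few unmatched indices. -/
theorem card_unmatched_le {F Γ : Finset G} {n N : ℕ} (eΓ : Γ ≃ Fin N) (eF : Fin n ≃ F) {k : G}
    {gi gk : Fin n → Fin N} (hgi : ∀ i, (eΓ.symm (gi i) : G) = eF i)
    (hgk : ∀ i, (eΓ.symm (gk i) : G) = k * eF i) :
    Function.Injective gi ∧ Function.Injective gk ∧
      (Finset.univ.filter fun i => ∀ j, gi i ≠ gk j).card +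
        (Finset.univ.filter fun j => ∀ i, gi i ≠ gk j).card ≤
      2 * ((F.image (k * ·)) \ F).card := by
  have hc : (F.image (k * ·)).card = F.card :=
    Finset.card_image_of_injective _ (mul_right_injective k)
  have inj₁ : ∀ i j, gi i = gi j → i = j := fun i j hij =>
    eF.injective (Subtype.ext (by rw [← hgi, ← hgi, hij]))
  have inj₂ : ∀ i j, gk i = gk j → i = j := fun i j hij =>
    eF.injective (Subtype.ext (mul_left_cancel (a := k) (by rw [← hgk, ← hgk, hij])))
  refine ⟨fun i j => inj₁ i j, fun i j => inj₂ i j, ?_⟩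
  have a1 : (Finset.univ.filter fun i => ∀ j, gi i ≠ gk j).card ≤
      (F \ F.image (k * ·)).card := by
    refine Finset.card_le_card_of_injOn (fun i => (eF i : G)) (fun i hi => ?_)
      (fun i _ j _ hij => eF.injective (Subtype.ext hij))
    refine Finset.mem_sdiff.2 ⟨(eF i).2, fun hm => ?_⟩
    obtain ⟨y, hy, hye⟩ := Finset.mem_image.1 hm
    refine (Finset.mem_filter.1 hi).2 (eF.symm ⟨y, hy⟩) (eΓ.symm.injective (Subtype.ext ?_))
    rw [hgi, hgk, Equiv.apply_symm_apply]
    exact hye.symm
  have a2 : (Finset.univ.filter fun j => ∀ i, gi i ≠ gk j).card ≤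
      (F.image (k * ·) \ F).card := by
    refine Finset.card_le_card_of_injOn (fun j => k * (eF j : G)) (fun j hj => ?_)
      (fun i _ j _ hij => eF.injective (Subtype.ext (mul_left_cancel hij)))
    refine Finset.mem_sdiff.2 ⟨Finset.mem_image.2 ⟨eF j, (eF j).2, rfl⟩, fun hm => ?_⟩
    refine (Finset.mem_filter.1 hj).2 (eF.symm ⟨_, hm⟩) (eΓ.symm.injective (Subtype.ext ?_))
    rw [hgi, hgk, Equiv.apply_symm_apply]
  rw [Finset.card_sdiff_comm hc.symm] at a1
  omega

/-- A homomorphism shifting the symmetries shifts the weights of a window. -/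
theorem map_window_translate {C : Type*} [CStarAlgebra C] (φ : C →⋆ₐ[ℂ] C) {q m L : ℕ}
    (c : Fin q → ℝ) (B : G → Fin L × Cube m → C) (hB : ∀ g i, star (B g i) = B g i) {k : G}
    (hφ : ∀ g i, φ (B g i) = B (k * g) i) {F Γ : Finset G} (hF : F ⊆ Γ)
    (hkF : ∀ h ∈ F, k * h ∈ Γ) {f : ℝ → ℝ} (hf : Continuous f) (t : ℝ) :
    φ (window f t (bigZ c (fun g : Γ => B g) (unifW F F))) =
      window f t (bigZ c (fun g : Γ => B g) (unifW F (F.image (k * ·)))) := by
  rw [map_window φ hf t (isSelfAdjoint_bigZ c _ (fun (g : Γ) i => hB g i) _), map_bigZ]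
  refine congrArg (window f t) ?_
  refine bigZ_congr c _ _ _ _ fun l => ?_
  funext a b
  have := map_rEntry_translate (fun g => B g (l, a) * B g (l, b)) hkF hF
    ((1 / F.card / 2 ^ m : ℝ) : ℂ)
  simp only [rEntry, unifW, hφ] at this ⊢
  refine Eq.trans (Finset.sum_congr rfl fun x _ => ?_) (this.trans
    (Finset.sum_congr rfl fun x _ => ?_))
  · by_cases hx : (x : G) ∈ F
    · simp only [if_pos hx]
    · simp only [if_neg hx, zero_div, Complex.ofReal_zero, zero_smul]
  · by_cases hx : (x : G) ∈ F.image (k * ·)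
    · simp only [if_pos hx]
    · simp only [if_neg hx, zero_div, Complex.ofReal_zero, zero_smul]

end Vale.Agent.P095.Mix
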